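import Vale.Agent.P011.E6O.Defs
import Vale.Agent.P011.E6H.XDefs
import Vale.Agent.P011.E6H.Hyp
import Mathlib.LinearAlgebra.LinearIndependent.Lemmas
import Mathlib.LinearAlgebra.Basis.VectorSpace
import Mathlib.LinearAlgebra.Matrix.Notation

/-!
The images of the elements of the cyclic algebra of degree three span the complex matrices.
-/

namespace Vale.Agent.P011.H543.Rl

open Vale.Agent.P011.MPQ Vale.Agent.P011.D4 Vale.Agent.P011.E6
open Vale.Agent.P011.E6O (InD0 um)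

variable {k E : Type} [Field k] [Field E] [Algebra k E]

/-- The coordinates of an element under the three embeddings. -/
def vec (ρ : E ≃ₐ[k] E) (φ : E →+* ℂ) (e : E) : Fin 3 → ℂ := ![φ e, φ (ρ e), φ (ρ (ρ e))]

/-- The three embeddings. -/
def emb (ρ : E ≃ₐ[k] E) (φ : E →+* ℂ) : Fin 3 → (E →* ℂ) :=
  ![(φ : E →* ℂ), ((φ.comp (ρ : E →+* E) : E →+* ℂ) : E →* ℂ),
    (((φ.comp (ρ : E →+* E)).comp (ρ : E →+* E) : E →+* ℂ) : E →* ℂ)]

theorem emb_inj {ρ : E ≃ₐ[k] E} (φ : E →+* ℂ) (hρ : ∃ x, ρ x ≠ x)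
    (ρ3 : ∀ x, ρ (ρ (ρ x)) = x) : Function.Injective (emb ρ φ) := by
  obtain ⟨x, hx⟩ := hρ
  have h0 : emb ρ φ 0 x = φ x := rfl
  have h1 : emb ρ φ 1 x = φ (ρ x) := rfl
  have h2 : emb ρ φ 2 x = φ (ρ (ρ x)) := rfl
  have e01 : φ x ≠ φ (ρ x) := fun h => hx (φ.injective h).symm
  have e12 : φ (ρ x) ≠ φ (ρ (ρ x)) := fun h => hx (ρ.injective (φ.injective h)).symm
  have e02 : φ x ≠ φ (ρ (ρ x)) := fun h => hx (by
    have h3 := congrArg ρ (φ.injective h)
    rw [ρ3] at h3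
    exact h3)
  intro i j hij
  have hij' : emb ρ φ i x = emb ρ φ j x := by rw [hij]
  fin_cases i <;> fin_cases j <;>
    first
    | rfl
    | exact absurd hij' e01
    | exact absurd hij' e12
    | exact absurd hij' e02
    | exact absurd hij' e01.symm
    | exact absurd hij' e12.symm
    | exact absurd hij' e02.symm

/-- The coordinates span everything. -/
theorem span_vec {ρ : E ≃ₐ[k] E} (φ : E →+* ℂ) (hρ : ∃ x, ρ x ≠ x)
    (ρ3 : ∀ x, ρ (ρ (ρ x)) = x) : Submodule.span ℂ (Set.range (vec ρ φ)) = ⊤ := by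
  by_contra hne
  obtain ⟨f, hf, hle⟩ := Submodule.exists_le_ker_of_lt_top _ (lt_top_iff_ne_top.2 hne)
  have hli := (linearIndependent_monoidHom E ℂ).comp _ (emb_inj φ hρ ρ3)
  rw [Fintype.linearIndependent_iff] at hli
  set c : Fin 3 → ℂ := fun i => f (fun j => if i = j then 1 else 0) with hc
  have hz := hli c (by
    funext e
    have h1 : f (vec ρ φ e) = 0 := hle (Submodule.subset_span ⟨e, rfl⟩)
    rw [LinearMap.pi_apply_eq_sum_univ, Fin.sum_univ_three] at h1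
    rw [Fin.sum_univ_three]
    change c 0 * φ e + c 1 * φ (ρ e) + c 2 * φ (ρ (ρ e)) = 0
    change φ e * c 0 + φ (ρ e) * c 1 + φ (ρ (ρ e)) * c 2 = 0 at h1
    rw [← h1]
    ring)
  apply hf
  apply LinearMap.ext
  intro v
  rw [LinearMap.pi_apply_eq_sum_univ]
  refine Finset.sum_eq_zero fun i _ => ?_
  change v i • c i = 0
  rw [hz i, smul_zero]

/-- The diagonal matrices of the algebra. -/
def dgm (ρ : E ≃ₐ[k] E) (e : E) : Matrix (Fin 3) (Fin 3) E :=
  Matrix.diagonal ![e, ρ e, ρ (ρ e)]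

theorem inD0_mul {ρ : E ≃ₐ[k] E} {lam : Eˣ} {x y : Matrix (Fin 3) (Fin 3) E}
    (hx : InD0 ρ lam x) (hy : InD0 ρ lam y) : InD0 ρ lam (x * y) := by
  have e1 : (x * y).map ρ = x.map ρ * y.map ρ := by
    ext i j
    simp [Matrix.mul_apply, map_sum]
  have hx' : x * um lam = um lam * x.map ρ := hx
  have hy' : y * um lam = um lam * y.map ρ := hy
  show x * y * um lam = um lam * (x * y).map ρ
  rw [e1, Matrix.mul_assoc, hy', ← Matrix.mul_assoc, hx', Matrix.mul_assoc]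

theorem inD0_dgm {ρ : E ≃ₐ[k] E} {lam : Eˣ} (ρ3 : ∀ x, ρ (ρ (ρ x)) = x) (e : E) :
    InD0 ρ lam (dgm ρ e) := by
  show dgm ρ e * um lam = um lam * (dgm ρ e).map ρ
  ext i j
  fin_cases i <;> fin_cases j <;>
    simp [dgm, um, Matrix.mul_apply, Fin.sum_univ_three, ρ3, mul_comm]

theorem inD0_um {ρ : E ≃ₐ[k] E} {lam : Eˣ} (hl : ρ (lam : E) = lam) :
    InD0 ρ lam (um lam) := by
  have h1 : (um lam).map ρ = um lam := by
    ext i j
    fin_cases i <;> fin_cases j <;> simp [um, hl]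
  show um lam * um lam = um lam * (um lam).map ρ
  rw [h1]

/-- The images of the elements of the algebra span the complex matrices. -/
theorem span_core {ρ : E ≃ₐ[k] E} {lam : Eˣ} (φ : E →+* ℂ) (hρ : ∃ x, ρ x ≠ x)
    (ρ3 : ∀ x, ρ (ρ (ρ x)) = x) (hl : ρ (lam : E) = lam) (M : Matrix (Fin 3) (Fin 3) ℂ) :
    M ∈ Submodule.span ℂ {z | ∃ x : Matrix (Fin 3) (Fin 3) E, InD0 ρ lam x ∧ z = x.map φ} := by
  set S := Submodule.span ℂ {z | ∃ x : Matrix (Fin 3) (Fin 3) E, InD0 ρ lam x ∧ z = x.map φ}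
    with hS
  -- the diagonal times a power of `u`
  have key : ∀ y : Matrix (Fin 3) (Fin 3) E, InD0 ρ lam y → ∀ v : Fin 3 → ℂ,
      Matrix.diagonal v * y.map φ ∈ S := by
    intro y hy v
    have hv : v ∈ Submodule.span ℂ (Set.range (vec ρ φ)) := by
      rw [span_vec φ hρ ρ3]; trivial
    induction hv using Submodule.span_induction with
    | mem w hw =>
      obtain ⟨e, rfl⟩ := hw
      refine Submodule.subset_span ⟨dgm ρ e * y, inD0_mul (inD0_dgm ρ3 e) hy, ?_⟩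
      ext i j
      rw [Matrix.diagonal_mul, Matrix.map_apply, Matrix.map_apply, dgm, Matrix.diagonal_mul,
        map_mul]
      fin_cases i <;> rfl
    | zero =>
      rw [show Matrix.diagonal (0 : Fin 3 → ℂ) = 0 from Matrix.diagonal_zero, Matrix.zero_mul]
      exact S.zero_mem
    | add w w' _ _ h1 h2 =>
      rw [show Matrix.diagonal (w + w') = Matrix.diagonal w + Matrix.diagonal w' from
        (Matrix.diagonal_add w w').symm, Matrix.add_mul]
      exact S.add_mem h1 h2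
    | smul t w _ h1 =>
      rw [Matrix.diagonal_smul, Matrix.smul_mul]
      exact S.smul_mem t h1
  have hone : InD0 ρ lam (1 : Matrix (Fin 3) (Fin 3) E) := by
    show 1 * um lam = um lam * (1 : Matrix (Fin 3) (Fin 3) E).map ρ
    rw [Matrix.map_one _ (map_zero ρ) (map_one ρ), Matrix.one_mul, Matrix.mul_one]
  have hφ : φ (lam : E) ≠ 0 := (map_ne_zero φ).2 lam.ne_zero
  have h0 := key 1 hone ![M 0 0, M 1 1, M 2 2]
  have h1 := key (um lam) (inD0_um hl) ![φ (lam : E) * M 0 2, M 1 0, M 2 1]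
  have h2 := key (um lam * um lam) (inD0_mul (inD0_um hl) (inD0_um hl))
    ![φ (lam : E) * M 0 1, φ (lam : E) * M 1 2, M 2 0]
  have h3 := S.add_mem (S.add_mem h0 h1) h2
  convert h3 using 1
  ext i j
  fin_cases i <;> fin_cases j <;>
    simp [um, Matrix.mul_apply, Matrix.diagonal, mul_comm, hφ]

/-- The images of the elements of the algebra span the complex matrices. -/
theorem spanD [NumberField k] [NumberField E] {ρ σ : E ≃ₐ[k] E} {lam : Eˣ} {g : Fin 3 → Eˣ}
    {kap : kˣ} (hS : E6H.IsSextic ρ σ kap) (hg : E6H.IsForm ρ σ lam g) (φ : E →+* ℂ)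
    (M : Matrix (Fin 3) (Fin 3) ℂ) :
    M ∈ Submodule.span ℂ {z | ∃ x : Matrix (Fin 3) (Fin 3) E, InD0 ρ lam x ∧ z = x.map φ} :=
  span_core φ hS.hρ hS.ρ3 hg.ρlam M

end Vale.Agent.P011.H543.Rl
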